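import Vale.Agent.P282.H133.Gal

/-!
P282, pairs: the cyclic cover of an orbifold germ `(X, D)`, `D = ∑ (1 - 1/m) D_m`,
defined by a generator of `r (K_X + D)`, is a klt germ of index one.
-/

open scoped NNReal ENNReal Nat WithZero
open IsLocalRing

namespace Vale.Agent.P282H

open Vale.Agent.P282.Full

section norm

variable {K : Type} [Field K]

/-- The values of a normalized valuation are integral powers of `e`. -/
theorem IsNormalized.exists_int {v : Valuation K ℝ≥0} (hv : IsNormalized v) {a : K} (ha : a ≠ 0) :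
    ∃ k : ℤ, Real.log (v a) = -k := by
  obtain ⟨f, hf⟩ := hv.1
  have hf0 : f ≠ 0 := by
    rintro rfl
    rw [map_zero] at hf
    exact (Real.exp_pos _).ne hf
  have hpos : (0 : ℝ) < v a := by
    have : v a ≠ 0 := (Valuation.ne_zero_iff v).2 ha
    exact_mod_cast pos_iff_ne_zero.2 this
  set t : ℝ := -Real.log (v a) with ht
  set k : ℤ := ⌊t⌋ with hk
  have h1 : (k : ℝ) ≤ t := Int.floor_le t
  have h2 : t < k + 1 := Int.lt_floor_add_one t
  have h3 : (v (a / f ^ k) : ℝ) = Real.exp (-(t - k)) := by
    rw [map_div₀, map_zpow₀, NNReal.coe_div, NNReal.coe_zpow, hf, ← Real.rpow_intCast, ← Real.exp_mul]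
    have h4 : (v a : ℝ) = Real.exp (-t) := by rw [ht, neg_neg, Real.exp_log hpos]
    rw [h4, ← Real.exp_sub]
    congr 1
    ring
  refine ⟨k, ?_⟩
  rcases h1.lt_or_eq with h4 | h4
  · exfalso
    have h5 : v (a / f ^ k) < 1 := by
      rw [← NNReal.coe_lt_coe, h3, NNReal.coe_one]
      exact Real.exp_lt_one_iff.2 (by linarith)
    have h6 := hv.2 _ h5
    rw [h3, Real.exp_le_exp] at h6
    linarith
  · rw [h4, ht, neg_neg]

end norm

variable {n r : ℕ} {R K R' K' : Type} [CommRing R] [IsDomain R] [IsLocalRing R] [Algebra ℂ R]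
  [Field K] [Algebra ℂ K] [Algebra R K] [IsScalarTower ℂ R K] [IsFractionRing R K]
  [CommRing R'] [IsDomain R'] [IsLocalRing R'] [Algebra ℂ R']
  [Field K'] [Algebra ℂ K'] [Algebra R' K'] [IsScalarTower ℂ R' K'] [IsFractionRing R' K']
  [Algebra K K'] [IsScalarTower ℂ K K'] [Algebra R R'] [Algebra R K'] [IsScalarTower R R' K']
  [IsScalarTower R K K'] [IsScalarTower ℂ R R']

variable (R) in
/-- `R` is the local ring of a klt pair `(X, D)` with standard coefficients, of dimension `n`, and
`ω` is a local generator of `r (K_X + D)`. -/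
structure IsOrbGerm (n r : ℕ) (ω : (Fin n → Derivation ℂ K K) → K) : Prop where
  essFiniteType : Algebra.EssFiniteType ℂ R
  normal : IsIntegrallyClosed R
  residue : Function.Surjective (algebraMap ℂ (ResidueField R))
  dim : Algebra.trdeg ℂ R = n
  index_pos : 0 < r
  form : IsPluriForm n r ω
  orbifold : ∀ (v : Valuation K ℝ≥0) (P : Ideal R), HasCenter R v P → P.height = 1 →
    IsNormalized v → ∃ m : ℕ, 0 < m ∧ IsLogDiscrepancy n r ω v (1 / m)
  klt : ∀ (v : Valuation K ℝ≥0) (P : Ideal R) (a : ℝ), HasCenter R v P → P ≠ ⊥ →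
    IsLogDiscrepancy n r ω v a → 0 < a

omit [IsLocalRing R] [IsDomain R'] [IsFractionRing R' K'] in
/-- The value of the generator at a normalized valuation. -/
theorem IsOrbGerm.value [IsLocalRing R] (hn : 1 ≤ n) {ω : (Fin n → Derivation ℂ K K) → K}
    (h : IsOrbGerm R n r ω) {w : Valuation K ℝ≥0} {P : Ideal R} (hwc : HasCenter R w P)
    (hP : P.height = 1) (hwn : IsNormalized w) {m : ℕ} (hm : 0 < m)
    (hlog : IsLogDiscrepancy n r ω w (1 / m)) :
    ∃ (L : Fin n → Derivation ℂ K K) (ζ : Fin n → K), LogFrame w L ζ ∧ ω L ≠ 0 ∧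
      Real.log (w (ω L)) = -((r : ℝ) / m) := by
  have hrR : (0 : ℝ) < r := by exact_mod_cast h.index_pos
  obtain ⟨L, ζ, hL⟩ :=
    exists_logFrame hn h.essFiniteType h.normal h.residue h.dim hwc hP hwn
  obtain ⟨h1, h2⟩ := cg_isLogDiscrepancy (cg_trdeg h.dim) (cg_ess h.essFiniteType) hL h.index_pos
    h.form
  refine ⟨L, ζ, hL, h1, ?_⟩
  have h4 : (1 : ℝ) / m = -Real.log (w (ω L)) / r := IsLUB.unique hlog h2
  rw [div_eq_div_iff (by exact_mod_cast hm.ne') hrR.ne'] at h4
  have hm' : (m : ℝ) ≠ 0 := by exact_mod_cast hm.ne'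
  field_simp
  linarith

/-- The cyclic cover of an orbifold germ is a klt germ of index one. -/
theorem isKltGerm_cover_orb (hn : 1 ≤ n) {ω : (Fin n → Derivation ℂ K K) → K}
    (h : IsOrbGerm R n r ω) {g : K} {b : Fin n → K}
    (hω : ∀ D, ω D = g * Matrix.det (Matrix.of fun i j => D i (b j)) ^ r) {ε : K'}
    (hc : IsCover (R := R) (R' := R') n r g ε) :
    IsKltGerm R' n 1 (coverForm ε b) := by
  have hr := h.index_pos
  have hrR : (0 : ℝ) < r := by exact_mod_cast hr
  have hessK : Algebra.EssFiniteType ℂ K := cg_ess h.essFiniteType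
  have hdimK : Algebra.trdeg ℂ K = n := cg_trdeg h.dim
  have hessK' : Algebra.EssFiniteType ℂ K' := cg_ess hc.essFiniteType
  have hdimK' : Algebra.trdeg ℂ K' = n := cg_trdeg hc.dim
  have hform : IsPluriForm n 1 (coverForm ε b) :=
    coverForm_isPluriForm hc.finite hr h.form.1 hω hc.pow
  have hg : g ≠ 0 := by
    rintro rfl
    obtain ⟨D, hD⟩ := h.form.1
    exact hD (by rw [hω D, zero_mul])
  have hε0 : ε ≠ 0 := by
    intro h0
    have h1 := hc.pow
    rw [h0, zero_pow hr.ne'] at h1
    exact hg ((map_eq_zero _).mp h1.symm)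
  refine ⟨hc.essFiniteType, hc.normal, hc.residue, hc.dim, one_pos, hform, ?_, ?_⟩
  · intro v P' hv hP' hnv
    have hP'p : P'.IsPrime := cg_prime hv
    have hv0 : HasCenter R (v.comap (algebraMap K K')) (P'.comap (algebraMap R R')) :=
      HasCenter.comap hc hv
    set v0 := v.comap (algebraMap K K') with hv0def
    have hv0a : ∀ a : K, v0 a = v (algebraMap K K' a) := fun a => rfl
    have hP : (P'.comap (algebraMap R R')).height = 1 := comap_height hc h.normal hP'
    set P := P'.comap (algebraMap R R') with hPdef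
    have hvC : ∀ c : ℂ, c ≠ 0 → v (algebraMap ℂ K' c) = 1 := cg_const hv
    obtain ⟨w, s, hs, hwn, hwc, hws⟩ :=
      exists_normalized hn h.essFiniteType h.normal h.residue h.dim hv0 hP
    obtain ⟨m, hm, hlogm⟩ := h.orbifold w P hwc hP hwn
    have hmR : (0 : ℝ) < m := by exact_mod_cast hm
    obtain ⟨L, ζ, hL, hωL, hval⟩ := h.value hn hwc hP hwn hm hlogm
    -- logarithms of the values of `v` on `K`
    have hlogs : ∀ a : K, Real.log (v (algebraMap K K' a)) = s * Real.log (w a) := by
      intro a
      by_cases ha : a = 0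
      · rw [ha]
        simp
      · rw [← hv0a, hws, NNReal.coe_rpow, Real.log_rpow]
        have : w a ≠ 0 := (Valuation.ne_zero_iff w).2 ha
        exact_mod_cast pos_iff_ne_zero.2 this
    obtain ⟨π, hπ⟩ := hwn.1
    have hπ0 : π ≠ 0 := by
      rintro rfl
      rw [map_zero] at hπ
      exact (Real.exp_pos _).ne hπ
    have hvsmall : ∃ a : K, a ≠ 0 ∧ v (algebraMap K K' a) < 1 := by
      refine ⟨π, hπ0, ?_⟩
      rw [← hv0a, hws]
      have h1 : w π < 1 := by
        rw [← NNReal.coe_lt_coe, hπ, NNReal.coe_one]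
        exact Real.exp_lt_one_iff.2 (by norm_num)
      exact NNReal.rpow_lt_one h1 hs
    -- the log frame
    choose L' hL' using fun i => exists_extend_derivation (K' := K') hc.finite (L i)
    have hdet : ∀ c : Fin n → K, Matrix.det (Matrix.of fun i j => L' i (algebraMap K K' (c j))) =
        algebraMap K K' (Matrix.det (Matrix.of fun i j => L i (c j))) := by
      intro c
      rw [RingHom.map_det]
      congr 1
      ext i j
      rw [Matrix.of_apply, hL', RingHom.mapMatrix_apply, Matrix.map_apply, Matrix.of_apply]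
    have hLv : ∀ i (a : K), v (algebraMap K K' (L i a)) ≤ v (algebraMap K K' a) := by
      intro i a
      rw [← hv0a, ← hv0a, hws, hws]
      exact NNReal.rpow_le_rpow (hL.le i a) hs.le
    have hL'f : LogFrame v L' (fun j => algebraMap K K' (ζ j)) := by
      refine ⟨fun i b' => ?_, fun i => ?_, ?_⟩
      · exact extend_log' hc.finite hc.galois hr hε0 hc.adjoin hc.pow v hvC hvsmall
          (fun b => hLv i b) (hL' i) b'
      · rw [Ne, FaithfulSMul.algebraMap_eq_zero_iff]
        exact hL.ne_zero i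
      · rw [hdet, ← map_prod, ← hv0a, ← hv0a, hws, hws, hL.eq]
    obtain ⟨h1, h2⟩ := cg_isLogDiscrepancy hdimK' hessK' hL'f one_pos hform
    -- the value of the form
    have h3 : v (coverForm ε b L') ^ r = v (algebraMap K K' (ω L)) := by
      rw [← map_pow]
      congr 1
      rw [coverForm, hdet, mul_pow, hc.pow, hω L, map_mul, map_pow]
    have h4 : Real.log (v (coverForm ε b L')) = -(s / m) := by
      have h5 := congrArg (fun x : ℝ≥0 => Real.log x) h3
      simp only [NNReal.coe_pow, Real.log_pow] at h5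
      rw [hlogs, hval] at h5
      have h6 : (r : ℝ) * (Real.log (v (coverForm ε b L')) + s / m) = 0 := by
        rw [mul_add, h5]
        field_simp
        ring
      rcases mul_eq_zero.1 h6 with h7 | h7
      · exact absurd h7 hrR.ne'
      · linarith
    -- `s / m` is an integer
    obtain ⟨M, hM⟩ := IsNormalized.exists_int hnv h1
    have hM' : s / m = (M : ℝ) := by
      rw [h4] at hM
      linarith
    -- the value of `ε`
    set δ := Matrix.det (Matrix.of fun i j => L i (b j)) with hδ
    have hcf : coverForm ε b L' = ε * algebraMap K K' δ := by rw [coverForm, hdet]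
    have hδ0 : δ ≠ 0 := by
      intro h0
      rw [hcf, h0, map_zero, mul_zero] at h1
      exact h1 rfl
    obtain ⟨kδ, hkδ⟩ := IsNormalized.exists_int hwn hδ0
    have hposv : ∀ x : K', x ≠ 0 → ((v x : ℝ≥0) : ℝ) ≠ 0 := by
      intro x hx
      have : v x ≠ 0 := (Valuation.ne_zero_iff v).2 hx
      exact_mod_cast this
    have hδ' : algebraMap K K' δ ≠ 0 := (map_ne_zero (algebraMap K K')).2 hδ0
    have hvε : Real.log (v ε) = -(s / m) + s * kδ := by
      rw [hcf, map_mul, NNReal.coe_mul, Real.log_mul (hposv _ hε0) (hposv _ hδ'), hlogs, hkδ] at h4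
      linarith
    -- the value group
    obtain ⟨f, hf⟩ := hnv.1
    have hf0 : f ≠ 0 := by
      rintro rfl
      rw [map_zero] at hf
      exact (Real.exp_pos _).ne hf
    obtain ⟨a, j, haj⟩ := exists_val_mul hc.finite hc.galois hr hε0 hc.adjoin hc.pow v hvC hvsmall
      f hf0
    have ha0 : a ≠ 0 := by
      rintro rfl
      rw [map_zero, zero_mul, map_zero] at haj
      exact ((Valuation.ne_zero_iff v).2 hf0) haj.symm
    have ha0' : algebraMap K K' a ≠ 0 := (map_ne_zero (algebraMap K K')).2 ha0
    obtain ⟨ka, hka⟩ := IsNormalized.exists_int hwn ha0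
    have h5 : (M : ℝ) * ((m : ℤ) * ka + j - j * m * kδ : ℤ) = 1 := by
      have h6 := congrArg (fun x : ℝ≥0 => Real.log x) haj
      simp only [map_mul, map_pow, NNReal.coe_mul, NNReal.coe_pow] at h6
      rw [hf, Real.log_exp, Real.log_mul (hposv _ ha0') (pow_ne_zero _ (hposv _ hε0)),
        Real.log_pow, hlogs, hka, hvε] at h6
      have h7 : s = M * m := by rw [← hM']; field_simp
      have h8 : s / m = M := hM'
      rw [h8] at h6
      rw [h7] at h6
      push_cast
      linarith
    have h6 : M * ((m : ℤ) * ka + j - j * m * kδ : ℤ) = 1 := by exact_mod_cast h5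
    have hMpos : 0 < M := by
      have : (0 : ℝ) < M := by rw [← hM']; positivity
      exact_mod_cast this
    have hM1 : M = 1 := by
      rcases Int.eq_one_or_neg_one_of_mul_eq_one h6 with h7 | h7
      · exact h7
      · omega
    rw [h4, hM', hM1] at h2
    simpa using h2
  · intro v P' a' hv hP' ha'
    have hv0 : HasCenter R (v.comap (algebraMap K K')) (P'.comap (algebraMap R R')) :=
      HasCenter.comap hc hv
    have hP : P'.comap (algebraMap R R') ≠ ⊥ := comap_ne_bot hc hP'
    have hsub := logSet_cover hdimK hessK hc.finite hr h.form.1 hω hc.pow v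
    have hne := logSet_nonempty hdimK hessK hr h.form (v.comap (algebraMap K K'))
    have ha'' : IsLUB (logSet n 1 (coverForm ε b) v) a' := ha'
    have hbdd : BddAbove (logSet n r ω (v.comap (algebraMap K K'))) :=
      ⟨a', fun t ht => ha''.1 (hsub ht)⟩
    have h1 := isLUB_csSup hne hbdd
    have h2 := h.klt _ _ _ hv0 hP h1
    exact lt_of_lt_of_le h2 (csSup_le hne fun t ht => ha''.1 (hsub ht))

end Vale.Agent.P282H
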