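import Vale.Agent.P282.Gap.Germ

/-!
P282, klt pairs: a klt pair germ `(X, D + ∑ c_i I_i)`, `D` with standard coefficients `1 - 1/m`,
`I_i` ideals, and its normalized volume.
-/

open scoped NNReal ENNReal
open IsLocalRing Vale.Agent.P282.Gap

namespace Vale.Agent.P282.Pair

variable (R : Type) {K : Type} [CommRing R] [IsDomain R] [IsLocalRing R] [Algebra ℂ R]
  [Field K] [Algebra ℂ K] [Algebra R K]

/-- The value `v(I) = min {v(f) : f ∈ I}` of an ideal at the real valuation `- log v`. -/
noncomputable def idealOrd (v : Valuation K ℝ≥0) (I : Ideal R) : ℝ :=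
  sInf {t : ℝ | ∃ f ∈ I, f ≠ 0 ∧ t = -Real.log (v (algebraMap R K f))}

/-- The local generator `ω` of `r (K_X + D)` is a generator of `r K_X`, that is `D = 0`: the log
discrepancy of every prime divisor on `Spec R` is `1`. -/
def NoBoundary (n r : ℕ) (ω : (Fin n → Derivation ℂ K K) → K) : Prop :=
  ∀ (v : Valuation K ℝ≥0) (P : Ideal R), HasCenter R v P → P.height = 1 → IsNormalized v →
    IsLogDiscrepancy n r ω v 1

/-- `R` is the local ring of a closed point of a normal complex variety `X` of dimension `n`, `ω` is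
a local generator of `r (K_X + D)` for a boundary `D` with standard coefficients `1 - 1/m`, `m ≥ 1`
(so `D = 0` is allowed), and `(X, D + ∑ c_i I_i)` is klt, `I_i` nonzero ideals, `c_i ≥ 0` real. -/
structure IsKltPair (n r : ℕ) (ω : (Fin n → Derivation ℂ K K) → K) {k : ℕ} (I : Fin k → Ideal R)
    (c : Fin k → ℝ) : Prop where
  essFiniteType : Algebra.EssFiniteType ℂ R
  normal : IsIntegrallyClosed R
  residue : Function.Surjective (algebraMap ℂ (ResidueField R))
  dim : Algebra.trdeg ℂ R = n
  index_pos : 0 < r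
  form : IsPluriForm n r ω
  standard : ∀ (v : Valuation K ℝ≥0) (P : Ideal R), HasCenter R v P → P.height = 1 →
    IsNormalized v → ∃ m : ℕ, 0 < m ∧ IsLogDiscrepancy n r ω v (1 / m)
  coeff_nonneg : ∀ i, 0 ≤ c i
  ideal_ne_bot : ∀ i, I i ≠ ⊥
  klt : ∀ (v : Valuation K ℝ≥0) (P : Ideal R) (a : ℝ), HasCenter R v P → P ≠ ⊥ →
    IsLogDiscrepancy n r ω v a → ∑ i, c i * idealOrd R v (I i) < a

/-- The normalized volume of the pair `(X, D + ∑ c_i I_i)`: the infimum of
`(A(v) - ∑ c_i v(I_i)) ^ n * vol(v)` over the real valuations centered at the closed point with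
finite log discrepancy `A(v)` with respect to `(X, D)`. -/
noncomputable def pairVolume (n r : ℕ) (ω : (Fin n → Derivation ℂ K K) → K) {k : ℕ}
    (I : Fin k → Ideal R) (c : Fin k → ℝ) : ℝ≥0∞ :=
  ⨅ (v : Valuation K ℝ≥0) (_ : HasCenter R v (maximalIdeal R)) (a : ℝ)
    (_ : IsLogDiscrepancy n r ω v a),
    ENNReal.ofReal (a - ∑ i, c i * idealOrd R v (I i)) ^ n * vol R n v

end Vale.Agent.P282.Pair
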