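import Vale.Agent.P282.Bd3.B11

/-!
P282, pairs: eigencomponents in a Kummer extension, without a unit hypothesis on the generator.
-/

open scoped NNReal ENNReal Nat WithZero
open IsLocalRing

namespace Vale.Agent.P282H

open Vale.Agent.P282.Full

variable {K K' : Type} [Field K] [Algebra ℂ K] [Field K'] [Algebra ℂ K'] [Algebra K K']
  [IsScalarTower ℂ K K'] {r : ℕ}

/-- The eigencomponents of an element of a Kummer extension. -/
theorem eigen (hfin : FiniteDimensional K K') (hgal : IsGalois K K') (hr : 0 < r)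
    {u : K'} (hu0 : u ≠ 0) (hu : Algebra.adjoin K {u} = ⊤) {c : K}
    (huc : u ^ r = algebraMap K K' c) (a : K') :
    ∃ (m : ℕ) (x : Fin m → K), 0 < m ∧ a = ∑ j : Fin m, algebraMap K K' (x j) * u ^ (j : ℕ) ∧
      ∀ j : Fin m, ∑ σ : K' ≃ₐ[K] K', σ a / (rat u σ) ^ (j : ℕ) =
        (Fintype.card (K' ≃ₐ[K] K') : K') * (algebraMap K K' (x j) * u ^ (j : ℕ)) := by
  classical
  let pb : PowerBasis K K' := PowerBasis.ofAdjoinEqTop (Algebra.IsIntegral.isIntegral u) hu
  have hgen : pb.gen = u := PowerBasis.ofAdjoinEqTop_gen _ _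
  have hbas : ∀ j, pb.basis j = u ^ (j : ℕ) := fun j => by rw [pb.basis_eq_pow, hgen]
  have hli : LinearIndependent K (fun i : Fin pb.dim => u ^ (i : ℕ)) := by
    have := pb.basis.linearIndependent
    rwa [show (pb.basis : Fin pb.dim → K') = fun i : Fin pb.dim => u ^ (i : ℕ) from
      funext hbas] at this
  have hsum : a = ∑ j : Fin pb.dim, algebraMap K K' (pb.basis.repr a j) * u ^ (j : ℕ) := by
    conv_lhs => rw [← pb.basis.sum_repr a]
    refine Finset.sum_congr rfl fun j _ => ?_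
    rw [hbas, Algebra.smul_def]
  have hpos : 0 < pb.dim := by
    have := pb.finrank
    have h2 : 0 < Module.finrank K K' := Module.finrank_pos
    omega
  refine ⟨pb.dim, fun j => pb.basis.repr a j, hpos, hsum, fun j => ?_⟩
  have hσa : ∀ σ : K' ≃ₐ[K] K', σ a =
      ∑ i : Fin pb.dim, algebraMap K K' (pb.basis.repr a i) * u ^ (i : ℕ) *
        (rat u σ) ^ (i : ℕ) := by
    intro σ
    conv_lhs => rw [hsum]
    rw [map_sum]
    refine Finset.sum_congr rfl fun i _ => ?_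
    rw [map_mul, AlgEquiv.commutes, map_pow, apply_eq_rat hu0 σ, mul_pow]
    ring
  have hr0 : ∀ σ : K' ≃ₐ[K] K', rat u σ ≠ 0 := fun σ => by
    rw [rat]
    exact div_ne_zero (by simpa using hu0) hu0
  have h1 : ∀ σ : K' ≃ₐ[K] K', σ a / (rat u σ) ^ (j : ℕ) =
      ∑ i : Fin pb.dim, algebraMap K K' (pb.basis.repr a i) * u ^ (i : ℕ) *
        ((rat u σ) ^ (i : ℕ) / (rat u σ) ^ (j : ℕ)) := by
    intro σ
    rw [hσa σ, Finset.sum_div]
    refine Finset.sum_congr rfl fun i _ => ?_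
    rw [mul_div_assoc]
  simp_rw [h1]
  rw [Finset.sum_comm, Finset.sum_eq_single j]
  · have h2 : ∀ σ : K' ≃ₐ[K] K', algebraMap K K' (pb.basis.repr a j) * u ^ (j : ℕ) *
        ((rat u σ) ^ (j : ℕ) / (rat u σ) ^ (j : ℕ)) =
        algebraMap K K' (pb.basis.repr a j) * u ^ (j : ℕ) := fun σ => by
      rw [div_self (pow_ne_zero _ (hr0 σ)), mul_one]
    simp_rw [h2]
    rw [Finset.sum_const, Finset.card_univ, nsmul_eq_mul]
  · intro i _ hij
    rw [← Finset.mul_sum, sum_rat hfin hgal hr hu0 huc pb.dim hli i j hij, mul_zero]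
  · intro h
    exact absurd (Finset.mem_univ _) h

/-- Eigencomponents and valuations. -/
theorem eigen_val (hfin : FiniteDimensional K K') (hgal : IsGalois K K') (hr : 0 < r)
    {u : K'} (hu0 : u ≠ 0) (hu : Algebra.adjoin K {u} = ⊤) {c : K}
    (huc : u ^ r = algebraMap K K' c) (v : Valuation K' ℝ≥0)
    (hvC : ∀ c : ℂ, c ≠ 0 → v (algebraMap ℂ K' c) = 1) (a : K') :
    ∃ (m : ℕ) (x : Fin m → K), a = ∑ j : Fin m, algebraMap K K' (x j) * u ^ (j : ℕ) ∧
      (∀ j, ∃ σ : K' ≃ₐ[K] K', v (algebraMap K K' (x j) * u ^ (j : ℕ)) ≤ v (σ a)) ∧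
      ∀ σ : K' ≃ₐ[K] K', ∃ j, v (σ a) ≤ v (algebraMap K K' (x j) * u ^ (j : ℕ)) := by
  classical
  obtain ⟨m, x, hm, hsum, hkey⟩ := eigen hfin hgal hr hu0 hu huc a
  refine ⟨m, x, hsum, ?_, ?_⟩
  · intro j
    obtain ⟨σ₀, -, hσ₀⟩ := Finset.exists_max_image (Finset.univ : Finset (K' ≃ₐ[K] K'))
      (fun σ => v (σ a)) ⟨1, Finset.mem_univ _⟩
    refine ⟨σ₀, ?_⟩
    have hcard : v (Fintype.card (K' ≃ₐ[K] K') : K') = 1 := by
      have := hvC (Fintype.card (K' ≃ₐ[K] K') : ℂ) (by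
        exact_mod_cast Fintype.card_ne_zero)
      rwa [map_natCast] at this
    have h3 : v (∑ σ : K' ≃ₐ[K] K', σ a / (rat u σ) ^ (j : ℕ)) ≤ v (σ₀ a) := by
      refine Valuation.map_sum_le v fun σ _ => ?_
      rw [map_div₀, map_pow, rat_val hr hu0 huc v hvC, one_pow, div_one]
      exact hσ₀ σ (Finset.mem_univ _)
    rw [hkey, map_mul, hcard, one_mul] at h3
    exact h3
  · intro σ
    have : Nonempty (Fin m) := ⟨⟨0, hm⟩⟩
    obtain ⟨j₀, -, hj₀⟩ := Finset.exists_max_image (Finset.univ : Finset (Fin m))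
      (fun j => v (algebraMap K K' (x j) * u ^ (j : ℕ))) ⟨⟨0, hm⟩, Finset.mem_univ _⟩
    refine ⟨j₀, ?_⟩
    conv_lhs => rw [hsum]
    rw [map_sum]
    refine Valuation.map_sum_le v fun i _ => ?_
    rw [map_mul, AlgEquiv.commutes, map_pow, apply_eq_rat hu0 σ, mul_pow, ← mul_assoc,
      mul_right_comm, map_mul v _ ((rat u σ) ^ (i : ℕ)), map_pow v (rat u σ),
      rat_val hr hu0 huc v hvC, one_pow, mul_one]
    exact hj₀ i (Finset.mem_univ _)

/-- The value group of `v` is generated by the values of `K` and of `u`. -/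
theorem exists_val_mul (hfin : FiniteDimensional K K') (hgal : IsGalois K K') (hr : 0 < r)
    {u : K'} (hu0 : u ≠ 0) (hu : Algebra.adjoin K {u} = ⊤) {c : K}
    (huc : u ^ r = algebraMap K K' c) (v : Valuation K' ℝ≥0)
    (hvC : ∀ c : ℂ, c ≠ 0 → v (algebraMap ℂ K' c) = 1)
    (hv : ∃ a : K, a ≠ 0 ∧ v (algebraMap K K' a) < 1)
    (a : K') (ha : a ≠ 0) : ∃ (b : K) (j : ℕ), v (algebraMap K K' b * u ^ j) = v a := by
  obtain ⟨t, ht1, ht2⟩ := exists_mult hfin v hv ha
  obtain ⟨m, x, -, hx1, hx2⟩ := eigen_val hfin hgal hr hu0 hu huc v hvC (t * a)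
  obtain ⟨j, hj⟩ := hx2 1
  rw [AlgEquiv.one_apply, map_mul, ht1, one_mul] at hj
  obtain ⟨σ, hσ⟩ := hx1 j
  exact ⟨x j, j, le_antisymm (hσ.trans (ht2 σ).2) hj⟩

theorem val_derivation_le' (hfin : FiniteDimensional K K') (hgal : IsGalois K K') (hr : 0 < r)
    {u : K'} (hu0 : u ≠ 0) (hu : Algebra.adjoin K {u} = ⊤) {c : K}
    (huc : u ^ r = algebraMap K K' c) (v : Valuation K' ℝ≥0)
    (hvC : ∀ c : ℂ, c ≠ 0 → v (algebraMap ℂ K' c) = 1)
    {D : Derivation ℂ K K} (hD : ∀ b : K, v (algebraMap K K' (D b)) ≤ v (algebraMap K K' b))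
    {D' : Derivation ℂ K' K'} (hD' : ∀ a : K, D' (algebraMap K K' a) = algebraMap K K' (D a))
    (b : K') : ∃ σ : K' ≃ₐ[K] K', v (D' b) ≤ v (σ b) := by
  classical
  have hvu0 : 0 < v u := pos_iff_ne_zero.2 ((Valuation.ne_zero_iff v).2 hu0)
  have hnat : ∀ j : ℕ, v ((j : ℕ) : K') ≤ 1 := by
    intro j
    by_cases hj0 : j = 0
    · rw [hj0, Nat.cast_zero, map_zero]
      exact zero_le_one
    · have := hvC (j : ℂ) (by exact_mod_cast hj0)
      rw [map_natCast] at this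
      exact this.le
  -- the value of `D' u`
  have hDu : v (D' u) ≤ v u := by
    have h1 : D' (u ^ r) = (r : K') * (u ^ (r - 1) * D' u) := by
      rw [Derivation.leibniz_pow, nsmul_eq_mul, smul_eq_mul]
    rw [huc, hD'] at h1
    have hvr : v (r : K') = 1 := by
      have := hvC (r : ℂ) (by exact_mod_cast hr.ne')
      rwa [map_natCast] at this
    have h2 : v u ^ (r - 1) * v (D' u) = v (algebraMap K K' (D c)) := by
      rw [h1, map_mul, hvr, one_mul, map_mul, map_pow]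
    have h3 : v u ^ (r - 1) * v (D' u) ≤ v u ^ (r - 1) * v u := by
      rw [h2, ← pow_succ, Nat.sub_add_cancel hr, ← map_pow, huc]
      exact hD c
    exact le_of_mul_le_mul_left h3 (pow_pos hvu0 _)
  obtain ⟨σ₀, -, hσ₀⟩ := Finset.exists_max_image (Finset.univ : Finset (K' ≃ₐ[K] K'))
    (fun σ => v (σ b)) ⟨1, Finset.mem_univ _⟩
  refine ⟨σ₀, ?_⟩
  obtain ⟨m, x, hsum, hx1, -⟩ := eigen_val hfin hgal hr hu0 hu huc v hvC b
  have hx : ∀ j, v (algebraMap K K' (x j) * u ^ (j : ℕ)) ≤ v (σ₀ b) := fun j => by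
    obtain ⟨σ, hσ⟩ := hx1 j
    exact hσ.trans (hσ₀ σ (Finset.mem_univ _))
  conv_lhs => rw [hsum]
  rw [map_sum]
  refine Valuation.map_sum_le v fun j _ => ?_
  rw [Derivation.leibniz, smul_eq_mul, smul_eq_mul, hD', Derivation.leibniz_pow, nsmul_eq_mul,
    smul_eq_mul]
  refine (v.map_add _ _).trans (max_le ?_ ?_)
  · refine le_trans ?_ (hx j)
    rw [map_mul, map_mul, map_mul, map_mul, map_pow, map_pow]
    rcases Nat.eq_zero_or_pos (j : ℕ) with hj0 | hj0
    · rw [hj0]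
      simp
    · calc v (algebraMap K K' (x j)) * (v ((j : ℕ) : K') * (v u ^ ((j : ℕ) - 1) * v (D' u)))
          ≤ v (algebraMap K K' (x j)) * (1 * (v u ^ ((j : ℕ) - 1) * v u)) := by
            gcongr
            exact hnat _
        _ = v (algebraMap K K' (x j)) * v u ^ (j : ℕ) := by
            rw [one_mul, ← pow_succ, Nat.sub_add_cancel hj0]
  · refine le_trans ?_ (hx j)
    rw [map_mul, map_mul, mul_comm]
    gcongr
    exact hD _

/-- Log derivations extend to log derivations in a Kummer extension. -/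
theorem extend_log' (hfin : FiniteDimensional K K') (hgal : IsGalois K K') (hr : 0 < r)
    {u : K'} (hu0 : u ≠ 0) (hu : Algebra.adjoin K {u} = ⊤) {c : K}
    (huc : u ^ r = algebraMap K K' c) (v : Valuation K' ℝ≥0)
    (hvC : ∀ c : ℂ, c ≠ 0 → v (algebraMap ℂ K' c) = 1)
    (hv : ∃ a : K, a ≠ 0 ∧ v (algebraMap K K' a) < 1)
    {D : Derivation ℂ K K} (hD : ∀ b : K, v (algebraMap K K' (D b)) ≤ v (algebraMap K K' b))
    {D' : Derivation ℂ K' K'} (hD' : ∀ a : K, D' (algebraMap K K' a) = algebraMap K K' (D a))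
    (b : K') : v (D' b) ≤ v b := by
  by_cases hb : b = 0
  · rw [hb, map_zero]
  obtain ⟨t, ht1, ht2⟩ := exists_mult hfin v hv hb
  obtain ⟨σ, hσ⟩ := val_derivation_le' hfin hgal hr hu0 hu huc v hvC hD hD' (t * b)
  obtain ⟨τ, hτ⟩ := val_derivation_le' hfin hgal hr hu0 hu huc v hvC hD hD' t
  have h1 : v (D' (t * b)) ≤ v b := hσ.trans (ht2 σ).2
  have h2 : v (D' t) ≤ 1 := hτ.trans (ht2 τ).1
  have h3 : t * D' b = D' (t * b) - b * D' t := by
    rw [Derivation.leibniz, smul_eq_mul, smul_eq_mul]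
    ring
  have h4 : v (D' b) = v (t * D' b) := by rw [map_mul, ht1, one_mul]
  rw [h4, h3]
  refine (v.map_sub _ _).trans (max_le h1 ?_)
  rw [map_mul]
  calc v b * v (D' t) ≤ v b * 1 := mul_le_mul' le_rfl h2
    _ = v b := mul_one _

end Vale.Agent.P282H
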