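import Vale.Agent.P282.H133.Sigma

/-!
P282, pairs: the inequality and the case of equality for klt germs with standard coefficients.
-/

open scoped NNReal ENNReal Nat WithZero
open IsLocalRing

namespace Vale.Agent.P282H

open Vale.Agent.P282.Full

private theorem general_num (n : ℕ) (hn : 2 ≤ n) :
    (n : ℝ≥0∞) ^ n * (1 / 2) ≤ 2 * ((n : ℝ≥0∞) - 1) ^ n := by
  have h0 : n ^ n ≤ 4 * (n - 1) ^ n := by
    rcases Nat.lt_or_ge 2 n with h | h
    · exact (ixm_num_nat n h).le
    · obtain rfl : n = 2 := le_antisymm h hn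
      norm_num
  have h1 : ((n : ℝ≥0∞) - 1) = ((n - 1 : ℕ) : ℝ≥0∞) := by
    rw [ENNReal.natCast_sub, Nat.cast_one]
  rw [h1]
  have h2 : (n : ℝ≥0∞) ^ n ≤ 4 * ((n - 1 : ℕ) : ℝ≥0∞) ^ n := by
    exact_mod_cast h0
  calc (n : ℝ≥0∞) ^ n * (1 / 2) ≤ 4 * ((n - 1 : ℕ) : ℝ≥0∞) ^ n * (1 / 2) := by gcongr
    _ = (4 * (1 / 2)) * ((n - 1 : ℕ) : ℝ≥0∞) ^ n := by ring
    _ = 2 * ((n - 1 : ℕ) : ℝ≥0∞) ^ n := by
        congr 1
        have : (4 : ℝ≥0∞) = 2 * 2 := by norm_num
        rw [this, mul_assoc, one_div, ENNReal.mul_inv_cancel (by norm_num) (by norm_num), mul_one]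

/-- The boundary `D` is zero. -/
def NoBd (R : Type) {K : Type} [CommRing R] [Field K] [Algebra ℂ K] [Algebra R K] (n r : ℕ)
    (ω : (Fin n → Derivation ℂ K K) → K) : Prop :=
  ∀ (v : Valuation K ℝ≥0) (P : Ideal R), HasCenter R v P → P.height = 1 → IsNormalized v →
    IsLogDiscrepancy n r ω v 1

theorem IsOrbGerm.ne_bot {n r : ℕ} (hn : 2 ≤ n) {R K : Type} [CommRing R] [IsDomain R]
    [IsLocalRing R] [Algebra ℂ R] [Field K] [Algebra ℂ K] [Algebra R K]
    {ω : (Fin n → Derivation ℂ K K) → K} (h : IsOrbGerm R n r ω) : maximalIdeal R ≠ ⊥ := by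
  intro hb
  have hsurj : Function.Surjective (algebraMap ℂ R) := by
    intro f
    obtain ⟨c, hc⟩ := h.residue (IsLocalRing.residue R f)
    refine ⟨c, ?_⟩
    have h1 : IsLocalRing.residue R (algebraMap ℂ R c - f) = 0 := by
      rw [map_sub, sub_eq_zero, ← hc]
      rfl
    rw [IsLocalRing.residue_eq_zero_iff, hb, Ideal.mem_bot, sub_eq_zero] at h1
    exact h1
  have halg : Algebra.IsAlgebraic ℂ R := by
    refine ⟨fun f => ?_⟩
    obtain ⟨c, rfl⟩ := hsurj f
    exact isAlgebraic_algebraMap c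
  have h0 : Algebra.trdeg ℂ R = 0 := trdeg_eq_zero
  rw [h.dim] at h0
  have : n = 0 := by exact_mod_cast h0
  omega

section

variable {n r : ℕ} {R K R' K' : Type} [CommRing R] [IsDomain R] [IsLocalRing R] [Algebra ℂ R]
  [Field K] [Algebra ℂ K] [Algebra R K] [IsScalarTower ℂ R K] [IsFractionRing R K]
  [CommRing R'] [IsDomain R'] [IsLocalRing R'] [Algebra ℂ R']
  [Field K'] [Algebra ℂ K'] [Algebra R' K'] [IsScalarTower ℂ R' K'] [IsFractionRing R' K']
  [Algebra K K'] [IsScalarTower ℂ K K'] [Algebra R R'] [Algebra R K'] [IsScalarTower R R' K']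
  [IsScalarTower R K K'] [IsScalarTower ℂ R R']

/-- If the decomposition group of the cover is trivial then `D = 0`. -/
theorem noBd_of_trivial (hn : 1 ≤ n) {ω : (Fin n → Derivation ℂ K K) → K}
    (h : IsOrbGerm R n r ω) {g : K} {b : Fin n → K}
    (hω : ∀ D, ω D = g * Matrix.det (Matrix.of fun i j => D i (b j)) ^ r) {ε : K'}
    (hc : IsCover (R := R) (R' := R') n r g ε)
    (htriv : ∀ σ : K' ≃ₐ[K] K', (∀ a : R', ∃ b : R', algebraMap R' K' b =
      σ (algebraMap R' K' a)) → σ = 1) : NoBd R n r ω := by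
  intro v P hv hP hvn
  obtain ⟨m, hm, hlog⟩ := h.orbifold v P hv hP hvn
  rcases Nat.lt_or_ge 1 m with h1 | h1
  · obtain ⟨σ, h2, h3⟩ := exists_sigma hn h hω hc hv hP hvn h1 hlog
    exact absurd (htriv σ h2) h3
  · obtain rfl : m = 1 := by omega
    simpa using hlog

end

/-- The inequality for all klt germs with standard coefficients. -/
theorem general_orb {n r : ℕ} (hn : 2 ≤ n) {R K : Type} [CommRing R] [IsDomain R] [IsLocalRing R]
    [Algebra ℂ R] [Field K] [Algebra ℂ K] [Algebra R K] [IsScalarTower ℂ R K] [IsFractionRing R K]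
    {ω : (Fin n → Derivation ℂ K K) → K} (h : IsOrbGerm R n r ω)
    (hreg : ¬ (IsRegularLocalRing R ∧ NoBd R n r ω)) :
    ∃ (v : Valuation K ℝ≥0) (a : ℝ), 0 ≤ a ∧ HasCenter R v (maximalIdeal R) ∧
      IsLogDiscrepancy n r ω v a ∧
      ENNReal.ofReal a ^ n * vol R n v ≤ 2 * ((n : ℝ≥0∞) - 1) ^ n := by
  have hn1 : 1 ≤ n := by omega
  have hr := h.index_pos
  obtain ⟨hne, g, b, hgb⟩ := h.form
  have hg : g ≠ 0 := by
    rintro rfl
    obtain ⟨D, hD⟩ := hne
    exact hD (by rw [hgb D, zero_mul])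
  obtain ⟨R', K', i1, i2, i3, i4, i5, i6, i7, i8, i9, i10, i11, i12, i13, i14, i15, i16, ε, hc⟩ :=
    exists_cover (n := n) (K := K) hr h.essFiniteType h.normal h.residue h.dim g hg
  have h' : IsKltGerm R' n 1 (coverForm ε b) := isKltGerm_cover_orb hn1 h hgb hc
  have hfin := hc.finite
  have hessR := h.essFiniteType
  have hessR' := hc.essFiniteType
  have hnR : IsNoetherianRing R := Algebra.EssFiniteType.isNoetherianRing ℂ R
  have hnR' : IsNoetherianRing R' := Algebra.EssFiniteType.isNoetherianRing ℂ R'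
  -- the function field
  have hessK : Algebra.EssFiniteType ℂ K := by
    have : Algebra.EssFiniteType R K :=
      Algebra.EssFiniteType.of_isLocalization K (nonZeroDivisors R)
    exact Algebra.EssFiniteType.comp ℂ R K
  have hdimK : Algebra.trdeg ℂ K = n := by
    have hinj : Function.Injective (algebraMap R K) := IsFractionRing.injective R K
    have hfs : FaithfulSMul R K := (faithfulSMul_iff_algebraMap_injective R K).mpr hinj
    have hfs' : FaithfulSMul ℂ R := (faithfulSMul_iff_algebraMap_injective ℂ R).mpr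
      (algebraMap ℂ R).injective
    have halg : Algebra.IsAlgebraic R K := IsLocalization.isAlgebraic K (nonZeroDivisors R)
    have h2 := trdeg_add_eq ℂ R (A := K)
    have h3 : Algebra.trdeg R K = 0 := trdeg_eq_zero
    rw [h3, add_zero] at h2
    rw [← h2, h.dim]
  -- the maximal ideal is not zero
  have hbot : maximalIdeal R ≠ ⊥ := h.ne_bot hn
  -- restriction of a valuation
  have key : ∀ (v' : Valuation K' ℝ≥0) (a' : ℝ), HasCenter R' v' (maximalIdeal R') →
      IsLogDiscrepancy n 1 (coverForm ε b) v' a' →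
      ∃ a : ℝ, 0 ≤ a ∧ a ≤ a' ∧
        HasCenter R (v'.comap (algebraMap K K')) (maximalIdeal R) ∧
        IsLogDiscrepancy n r ω (v'.comap (algebraMap K K')) a := by
    intro v' a' hv' ha'
    have hcen : HasCenter R (v'.comap (algebraMap K K')) (maximalIdeal R) := by
      have := HasCenter.comap hc hv'
      rwa [comap_maximalIdeal hc] at this
    have hsub := logSet_cover hdimK hessK hfin hr hne hgb hc.pow v'
    have hub : a' ∈ upperBounds (logSet n r ω (v'.comap (algebraMap K K'))) := fun t ht =>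
      ha'.1 (hsub ht)
    have hnonempty := logSet_nonempty hdimK hessK hr h.form (v'.comap (algebraMap K K'))
    have hlub : IsLogDiscrepancy n r ω (v'.comap (algebraMap K K'))
        (sSup (logSet n r ω (v'.comap (algebraMap K K')))) :=
      isLUB_csSup hnonempty ⟨a', hub⟩
    exact ⟨_, (h.klt _ _ _ hcen hbot hlub).le, csSup_le hnonempty hub, hcen, hlub⟩
  by_cases hreg' : IsRegularLocalRing R'
  · by_cases hσ : ∃ σ : K' ≃ₐ[K] K', (∀ a : R', ∃ b : R', algebraMap R' K' b =
        σ (algebraMap R' K' a)) ∧ σ ≠ 1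
    · obtain ⟨σ, hσ, hσ1⟩ := hσ
      obtain ⟨w, a', -, han, hld, hw, hlen⟩ := exists_ord_germ hn1 h' hreg'
      have hcw : HasCenter R' w (maximalIdeal R') := by
        intro f
        have hle : (w (algebraMap R' K' f) : ℝ) ≤ 1 := by
          have := (hw f 0).mpr (by simp)
          simpa using this
        refine ⟨by exact_mod_cast hle, ?_, ?_⟩
        · intro hlt
          have hlt' : (w (algebraMap R' K' f) : ℝ) < 1 := by exact_mod_cast hlt
          obtain ⟨N, hN⟩ := exists_pow_lt_of_lt_one (Real.exp_pos (-(1 : ℕ) : ℝ)) hlt'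
          have h1 : f ^ N ∈ maximalIdeal R' ^ 1 := by
            refine (hw (f ^ N) 1).mp ?_
            rw [map_pow, map_pow]
            push_cast at hN ⊢
            exact hN.le
          rw [pow_one] at h1
          exact (IsLocalRing.maximalIdeal.isMaximal R').isPrime.mem_of_pow_mem N h1
        · intro hf
          have h1 := (hw f 1).mpr (by rwa [pow_one])
          have h2 : Real.exp (-(1 : ℕ) : ℝ) < 1 := by
            rw [Real.exp_lt_one_iff]
            norm_num
          have h3 : (w (algebraMap R' K' f) : ℝ) < 1 := h1.trans_lt h2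
          exact_mod_cast h3
      obtain ⟨a, ha0, haa, hcen, hldv⟩ := key w a' hcw hld
      refine ⟨_, a, ha0, hcen, hldv, ?_⟩
      have hvol := vol_le_half hn1 h.essFiniteType h.normal h.residue hg hr hc hw hlen hσ hσ1
      have h1 : ENNReal.ofReal a ≤ (n : ℝ≥0∞) := by
        rw [← ENNReal.ofReal_natCast]
        exact ENNReal.ofReal_le_ofReal (haa.trans han)
      calc ENNReal.ofReal a ^ n * vol R n (w.comap (algebraMap K K'))
          ≤ (n : ℝ≥0∞) ^ n * (1 / 2) := by gcongr
        _ ≤ _ := general_num n hn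
    · exfalso
      push Not at hσ
      exact hreg ⟨regular_of_trivial h.essFiniteType h.normal h.residue h.dim hc hreg' hσ,
        noBd_of_trivial hn1 h hgb hc hσ⟩
  · obtain ⟨v', a', ha', hv', hld', hle'⟩ := cartier hn h' hreg'
    obtain ⟨a, ha0, haa, hcen, hldv⟩ := key v' a' hv' hld'
    refine ⟨_, a, ha0, hcen, hldv, ?_⟩
    refine le_trans ?_ hle'
    have hvol := vol_comap_le h.residue hc hv'
    gcongr

/-- The equality case for all klt germs with standard coefficients. -/
theorem equality_orb {n r : ℕ} (hn3 : 3 ≤ n) {R K : Type} [CommRing R] [IsDomain R]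
    [IsLocalRing R] [Algebra ℂ R] [Field K] [Algebra ℂ K] [Algebra R K] [IsScalarTower ℂ R K]
    [IsFractionRing R K] {ω : (Fin n → Derivation ℂ K K) → K} (h : IsOrbGerm R n r ω)
    (hreg : ¬ (IsRegularLocalRing R ∧ NoBd R n r ω)) (hV : NVolGe R n r ω (2 * ((n : ℝ≥0∞) - 1) ^ n)) :
    NoBd R n r ω ∧ IsODP R n := by
  have hn : 2 ≤ n := by omega
  have hn1 : 1 ≤ n := by omega
  have hr := h.index_pos
  obtain ⟨hne, g, b, hgb⟩ := h.form
  have hg : g ≠ 0 := by
    rintro rfl
    obtain ⟨D, hD⟩ := hne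
    exact hD (by rw [hgb D, zero_mul])
  obtain ⟨R', K', i1, i2, i3, i4, i5, i6, i7, i8, i9, i10, i11, i12, i13, i14, i15, i16, ε, hc⟩ :=
    exists_cover (n := n) (K := K) hr h.essFiniteType h.normal h.residue h.dim g hg
  have h' : IsKltGerm R' n 1 (coverForm ε b) := isKltGerm_cover_orb hn1 h hgb hc
  have hfin := hc.finite
  have hessR := h.essFiniteType
  have hessR' := hc.essFiniteType
  have hnR : IsNoetherianRing R := Algebra.EssFiniteType.isNoetherianRing ℂ R
  have hnR' : IsNoetherianRing R' := Algebra.EssFiniteType.isNoetherianRing ℂ R'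
  -- the function field
  have hessK : Algebra.EssFiniteType ℂ K := by
    have : Algebra.EssFiniteType R K :=
      Algebra.EssFiniteType.of_isLocalization K (nonZeroDivisors R)
    exact Algebra.EssFiniteType.comp ℂ R K
  have hdimK : Algebra.trdeg ℂ K = n := by
    have hinj : Function.Injective (algebraMap R K) := IsFractionRing.injective R K
    have hfs : FaithfulSMul R K := (faithfulSMul_iff_algebraMap_injective R K).mpr hinj
    have hfs' : FaithfulSMul ℂ R := (faithfulSMul_iff_algebraMap_injective ℂ R).mpr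
      (algebraMap ℂ R).injective
    have halg : Algebra.IsAlgebraic R K := IsLocalization.isAlgebraic K (nonZeroDivisors R)
    have h2 := trdeg_add_eq ℂ R (A := K)
    have h3 : Algebra.trdeg R K = 0 := trdeg_eq_zero
    rw [h3, add_zero] at h2
    rw [← h2, h.dim]
  -- the maximal ideal is not zero
  have hbot : maximalIdeal R ≠ ⊥ := h.ne_bot hn
  -- restriction of a valuation
  have key : ∀ (v' : Valuation K' ℝ≥0) (a' : ℝ), HasCenter R' v' (maximalIdeal R') →
      IsLogDiscrepancy n 1 (coverForm ε b) v' a' →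
      ∃ a : ℝ, 0 ≤ a ∧ a ≤ a' ∧
        HasCenter R (v'.comap (algebraMap K K')) (maximalIdeal R) ∧
        IsLogDiscrepancy n r ω (v'.comap (algebraMap K K')) a := by
    intro v' a' hv' ha'
    have hcen : HasCenter R (v'.comap (algebraMap K K')) (maximalIdeal R) := by
      have := HasCenter.comap hc hv'
      rwa [comap_maximalIdeal hc] at this
    have hsub := logSet_cover hdimK hessK hfin hr hne hgb hc.pow v'
    have hub : a' ∈ upperBounds (logSet n r ω (v'.comap (algebraMap K K'))) := fun t ht =>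
      ha'.1 (hsub ht)
    have hnonempty := logSet_nonempty hdimK hessK hr h.form (v'.comap (algebraMap K K'))
    have hlub : IsLogDiscrepancy n r ω (v'.comap (algebraMap K K'))
        (sSup (logSet n r ω (v'.comap (algebraMap K K')))) :=
      isLUB_csSup hnonempty ⟨a', hub⟩
    exact ⟨_, (h.klt _ _ _ hcen hbot hlub).le, csSup_le hnonempty hub, hcen, hlub⟩
  by_cases hreg' : IsRegularLocalRing R'
  · exfalso
    by_cases hσ : ∃ σ : K' ≃ₐ[K] K', (∀ a : R', ∃ b : R', algebraMap R' K' b =
        σ (algebraMap R' K' a)) ∧ σ ≠ 1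
    · obtain ⟨σ, hσ, hσ1⟩ := hσ
      obtain ⟨w, a', -, han, hld, hw, hlen⟩ := exists_ord_germ hn1 h' hreg'
      have hcw : HasCenter R' w (maximalIdeal R') := ixm_center hw
      obtain ⟨a, ha0, haa, hcen, hldv⟩ := key w a' hcw hld
      have hlow := hV _ _ hcen hldv
      have h1 : ENNReal.ofReal a ≤ (n : ℝ≥0∞) := by
        rw [← ENNReal.ofReal_natCast]
        exact ENNReal.ofReal_le_ofReal (haa.trans han)
      have hvol := vol_le_half hn1 h.essFiniteType h.normal h.residue hg hr hc hw hlen hσ hσ1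
      have hvol' : volI R n (w.comap (algebraMap K K')) ≤ 1 / 2 :=
        le_trans (Filter.liminf_le_limsup) hvol
      exact ixm_num hn3 h1 hvol' hlow
    · push Not at hσ
      exact hreg ⟨regular_of_trivial h.essFiniteType h.normal h.residue h.dim hc hreg' hσ,
        noBd_of_trivial hn1 h hgb hc hσ⟩
  · have hV' : NVolGe R' n 1 (coverForm ε b) (2 * ((n : ℝ≥0∞) - 1) ^ n) := by
      intro v' a' hv' hld'
      obtain ⟨a, ha0, haa, hcen, hldv⟩ := key v' a' hv' hld'
      refine (hV _ _ hcen hldv).trans ?_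
      have := volI_comap_le h.residue hc hv'
      gcongr
    obtain ⟨hodp, hlen, v', a', hv', hld', ha'0, ha'n, hm, hm'⟩ :=
      equality_cartier hn h' hreg' hV'
    by_cases hσ : ∃ σ : K' ≃ₐ[K] K', (∀ a : R', ∃ b : R', algebraMap R' K' b =
        σ (algebraMap R' K' a)) ∧ σ ≠ 1
    · exfalso
      obtain ⟨σ, hσ, hσ1⟩ := hσ
      have hA := ixm_ofReal ha'n
      have hlow' := hV' _ _ hv' hld'
      have h2le : 2 ≤ volI R' n v' := ixm_num4 hn hA hlow'
      have hofin : IsOfFinOrder (σ.restrictScalars ℂ) := by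
        have := (AlgEquiv.restrictScalarsHom ℂ : (K' ≃ₐ[K] K') →* (K' ≃ₐ[ℂ] K')).isOfFinOrder
          (isOfFinOrder_of_finite σ)
        simpa using this
      have hinv : ∀ a : K', v' (σ a) = v' a := fun a =>
        val_invariant hn1 hc.residue (e := 2) (by norm_num) hlen hv' hm hm'
          (by exact_mod_cast h2le) hofin hσ a
      have hvv := volI_comap_of_inv hn1 h.residue hc.residue hc hv' hσ hinv
      have hvol2 : volI R' n v' ≤ ((2 : ℕ) : ℝ≥0∞) :=
        ixm_volI_le (fun f => (hv' f).1) hm hlen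
      obtain ⟨a, ha0, haa, hcen, hldv⟩ := key v' a' hv' hld'
      have hlow := hV _ _ hcen hldv
      have hpos : 0 < orderOf σ := orderOf_pos σ
      have hord1 : orderOf σ ≠ 1 := fun hh => hσ1 (orderOf_eq_one_iff.1 hh)
      exact ixm_num3 hn (by omega) ((ENNReal.ofReal_le_ofReal haa).trans hA) hvv
        (by simpa using hvol2) hlow
    · push Not at hσ
      exact ⟨noBd_of_trivial hn1 h hgb hc hσ,
        isODP_of_trivial h.essFiniteType h.normal h.residue hc hσ hodp⟩

end Vale.Agent.P282H
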