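import Vale.Agent.P282.H133.Gen
import Vale.Agent.P282.H133.Defs

/-!
P282, klt pairs: the inequality and the case of equality.
-/

open scoped NNReal ENNReal
open IsLocalRing Vale.Agent.P282.Gap

namespace Vale.Agent.P282.Pair

variable {n r : ℕ} {R : Type} [CommRing R] [IsDomain R] [IsLocalRing R] [Algebra ℂ R]
  {ω : (Fin n → Derivation ℂ (FractionRing R) (FractionRing R)) → FractionRing R}
  {k : ℕ} {I : Fin k → Ideal R} {c : Fin k → ℝ}

omit [IsLocalRing R] [Algebra ℂ R] in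
theorem neg_log_nonneg {v : Valuation (FractionRing R) ℝ≥0} {P : Ideal R}
    (hv : HasCenter R v P) (f : R) :
    0 ≤ -Real.log (v (algebraMap R (FractionRing R) f)) := by
  have h1 : (v (algebraMap R (FractionRing R) f) : ℝ) ≤ 1 := by exact_mod_cast (hv f).1
  have h2 := Real.log_nonpos (NNReal.coe_nonneg _) h1
  linarith

omit [IsLocalRing R] [Algebra ℂ R] in
theorem idealOrd_nonneg {v : Valuation (FractionRing R) ℝ≥0} {P : Ideal R}
    (hv : HasCenter R v P) (J : Ideal R) : 0 ≤ idealOrd R v J := by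
  refine Real.sInf_nonneg ?_
  rintro t ⟨f, -, -, rfl⟩
  exact neg_log_nonneg hv f

omit [IsLocalRing R] [Algebra ℂ R] in
theorem idealOrd_top {v : Valuation (FractionRing R) ℝ≥0} {P : Ideal R}
    (hv : HasCenter R v P) : idealOrd R v (⊤ : Ideal R) = 0 := by
  refine le_antisymm ?_ (idealOrd_nonneg hv _)
  refine csInf_le ⟨0, ?_⟩ ⟨1, trivial, one_ne_zero, by simp⟩
  rintro t ⟨f, -, -, rfl⟩
  exact neg_log_nonneg hv f

omit [Algebra ℂ R] in
theorem idealOrd_pos [IsNoetherianRing R] {v : Valuation (FractionRing R) ℝ≥0}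
    (hv : HasCenter R v (maximalIdeal R)) {J : Ideal R} (h0 : J ≠ ⊥) (h1 : J ≠ ⊤) :
    0 < idealOrd R v J := by
  obtain ⟨μ, hμ1, hμ⟩ := Full.cb_mu (K := FractionRing R) (v := v) hv
  have hJ : J ≤ maximalIdeal R := IsLocalRing.le_maximalIdeal h1
  obtain ⟨f, hf, hf0⟩ := Submodule.exists_mem_ne_zero_of_ne_bot h0
  have hle : ∀ g ∈ J, v (algebraMap R (FractionRing R) g) ≤ μ := by
    intro g hg
    have := hμ 1 g (by simpa using hJ hg)
    simpa using this
  have hne : ∀ g : R, g ≠ 0 → 0 < v (algebraMap R (FractionRing R) g) := by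
    intro g hg
    refine pos_iff_ne_zero.2 ((Valuation.ne_zero_iff v).2 ?_)
    exact (map_ne_zero_iff _ (IsFractionRing.injective R (FractionRing R))).2 hg
  have hμ0 : 0 < μ := (hne f hf0).trans_le (hle f hf)
  have h2 : Real.log μ < 0 := Real.log_neg (by exact_mod_cast hμ0) (by exact_mod_cast hμ1)
  have h3 : -Real.log μ ≤ idealOrd R v J := by
    refine le_csInf ⟨_, f, hf, hf0, rfl⟩ ?_
    rintro t ⟨g, hg, hg0, rfl⟩
    have h4 : (0 : ℝ) < v (algebraMap R (FractionRing R) g) := by exact_mod_cast hne g hg0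
    have h5 : (v (algebraMap R (FractionRing R) g) : ℝ) ≤ μ := by exact_mod_cast hle g hg
    have := Real.log_le_log h4 h5
    linarith
  linarith

omit [IsLocalRing R] [Algebra ℂ R] in
theorem sum_nonneg {v : Valuation (FractionRing R) ℝ≥0} {P : Ideal R} (hv : HasCenter R v P)
    (hc : ∀ i, 0 ≤ c i) : 0 ≤ ∑ i, c i * idealOrd R v (I i) :=
  Finset.sum_nonneg fun i _ => mul_nonneg (hc i) (idealOrd_nonneg hv _)

theorem IsKltPair.toOrb (h : IsKltPair R n r ω I c) : P282H.IsOrbGerm R n r ω where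
  essFiniteType := h.essFiniteType
  normal := h.normal
  residue := h.residue
  dim := h.dim
  index_pos := h.index_pos
  form := h.form
  orbifold := h.standard
  klt := fun v P a hv hP ha => (sum_nonneg hv h.coeff_nonneg).trans_lt (h.klt v P a hv hP ha)

/-- The inequality. -/
theorem pairVolume_le (hn : 2 ≤ n) (h : IsKltPair R n r ω I c)
    (hreg : ¬ (IsRegularLocalRing R ∧ NoBoundary R n r ω)) :
    pairVolume R n r ω I c ≤ 2 * ((n : ℝ≥0∞) - 1) ^ n := by
  obtain ⟨v, a, _, hv, ha, hle⟩ := P282H.general_orb hn h.toOrb hreg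
  refine le_trans ?_ hle
  refine le_trans (iInf_le_of_le v (iInf_le_of_le hv (iInf_le_of_le a (iInf_le_of_le ha le_rfl)))) ?_
  refine mul_le_mul' ?_ (vol_le_full v)
  have h1 : a - ∑ i, c i * idealOrd R v (I i) ≤ a := by
    linarith [sum_nonneg (I := I) hv h.coeff_nonneg]
  exact pow_le_pow_left₀ (zero_le) (ENNReal.ofReal_le_ofReal h1) n

/-- The pair `(X, D)` has at least the normalized volume of `(X, D + ∑ c_i I_i)`. -/
theorem nVolGe (h : IsKltPair R n r ω I c) {V : ℝ≥0∞} (hV : pairVolume R n r ω I c = V) :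
    Full.NVolGe R n r ω V := by
  intro v a hv ha
  rw [← hV]
  refine le_trans (iInf_le_of_le v (iInf_le_of_le hv (iInf_le_of_le a (iInf_le_of_le ha le_rfl)))) ?_
  have h1 : a - ∑ i, c i * idealOrd R v (I i) ≤ a := by
    linarith [sum_nonneg (I := I) hv h.coeff_nonneg]
  exact mul_le_mul' (pow_le_pow_left₀ (zero_le) (ENNReal.ofReal_le_ofReal h1) n) le_rfl

/-- In the case of equality the ideals are trivial. -/
theorem ideals_trivial (hn : 2 ≤ n) (h : IsKltPair R n r ω I c)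
    (hreg : ¬ (IsRegularLocalRing R ∧ NoBoundary R n r ω))
    (heq : pairVolume R n r ω I c = 2 * ((n : ℝ≥0∞) - 1) ^ n) (j : Fin k) :
    c j = 0 ∨ I j = ⊤ := by
  have hess := h.essFiniteType
  have hnR : IsNoetherianRing R := Algebra.EssFiniteType.isNoetherianRing ℂ R
  by_contra hcon
  push Not at hcon
  obtain ⟨hcj, hIj⟩ := hcon
  obtain ⟨v, a, _, hv, ha, hle⟩ := P282H.general_orb hn h.toOrb hreg
  have hs : 0 < ∑ i, c i * idealOrd R v (I i) := by
    refine Finset.sum_pos' (fun i _ => mul_nonneg (h.coeff_nonneg i) (idealOrd_nonneg hv _))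
      ⟨j, Finset.mem_univ _, ?_⟩
    exact mul_pos (lt_of_le_of_ne (h.coeff_nonneg j) (Ne.symm hcj))
      (idealOrd_pos hv (h.ideal_ne_bot j) hIj)
  have hbot : maximalIdeal R ≠ ⊥ := h.toOrb.ne_bot hn
  have hlt := h.klt v _ a hv hbot ha
  set s := ∑ i, c i * idealOrd R v (I i) with hsdef
  have h1 : (2 * ((n : ℝ≥0∞) - 1) ^ n) ≤ ENNReal.ofReal (a - s) ^ n * Gap.vol R n v := by
    rw [← heq]
    exact iInf_le_of_le v (iInf_le_of_le hv (iInf_le_of_le a (iInf_le_of_le ha le_rfl)))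
  have h2 : ENNReal.ofReal a ^ n * Gap.vol R n v ≤ 2 * ((n : ℝ≥0∞) - 1) ^ n :=
    (mul_le_mul' le_rfl (vol_le_full v)).trans hle
  have hB0 : (2 * ((n : ℝ≥0∞) - 1) ^ n) ≠ 0 := by
    have h3 : ((n : ℝ≥0∞) - 1) = ((n - 1 : ℕ) : ℝ≥0∞) := by
      rw [ENNReal.natCast_sub, Nat.cast_one]
    rw [h3]
    have h4 : (n - 1 : ℕ) ≠ 0 := by omega
    exact mul_ne_zero (by norm_num) (pow_ne_zero _ (by exact_mod_cast h4))
  have hBt : (2 * ((n : ℝ≥0∞) - 1) ^ n) ≠ ⊤ := by
    have h3 : ((n : ℝ≥0∞) - 1) = ((n - 1 : ℕ) : ℝ≥0∞) := by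
      rw [ENNReal.natCast_sub, Nat.cast_one]
    rw [h3]
    exact ENNReal.mul_ne_top (by norm_num) (ENNReal.pow_ne_top (ENNReal.natCast_ne_top _))
  have h5 : 0 < a := by linarith
  have h6 : ENNReal.ofReal a ≠ 0 := by
    rw [Ne, ENNReal.ofReal_eq_zero]
    linarith
  have hV0 : Gap.vol R n v ≠ 0 := by
    intro h0
    rw [h0, mul_zero] at h1
    exact hB0 (le_antisymm h1 (zero_le))
  have hVt : Gap.vol R n v ≠ ⊤ := by
    intro h0
    rw [h0, ENNReal.mul_top (pow_ne_zero _ h6)] at h2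
    exact hBt (le_antisymm le_top h2)
  have h7 : ENNReal.ofReal a ^ n * Gap.vol R n v ≤ ENNReal.ofReal (a - s) ^ n * Gap.vol R n v := h2.trans h1
  have h8 : ENNReal.ofReal a ^ n ≤ ENNReal.ofReal (a - s) ^ n :=
    (ENNReal.mul_le_mul_iff_left hV0 hVt).1 h7
  have h9 : ENNReal.ofReal a ≤ ENNReal.ofReal (a - s) := by
    by_contra h10
    exact absurd h8 (not_le.2 (ENNReal.pow_lt_pow_left (by omega : n ≠ 0) (not_le.1 h10)))
  rw [ENNReal.ofReal_le_ofReal_iff (by linarith)] at h9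
  linarith

theorem IsKltPair.toGerm (h : IsKltPair R n r ω I c) (h0 : NoBoundary R n r ω) :
    IsKltGerm R n r ω where
  essFiniteType := h.essFiniteType
  normal := h.normal
  residue := h.residue
  dim := h.dim
  index_pos := h.index_pos
  form := h.form
  canonical := h0
  klt := fun v P a hv hP ha => (sum_nonneg hv h.coeff_nonneg).trans_lt (h.klt v P a hv hP ha)

/-- The value on an ordinary double point. -/
theorem pairVolume_odp (hn : 2 ≤ n) (h : IsKltPair R n r ω I c)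
    (hreg : ¬ (IsRegularLocalRing R ∧ NoBoundary R n r ω)) (h0 : NoBoundary R n r ω)
    (hI : ∀ i, c i = 0 ∨ I i = ⊤) (hodp : IsODP R n) :
    pairVolume R n r ω I c = 2 * ((n : ℝ≥0∞) - 1) ^ n := by
  have hreg' : ¬ IsRegularLocalRing R := fun hr => hreg ⟨hr, h0⟩
  refine le_antisymm (pairVolume_le hn h hreg) ?_
  rw [← normalizedVolume_odp hn (h.toGerm h0) hreg' hodp]
  refine le_iInf fun v => le_iInf fun hv => le_iInf fun a => le_iInf fun ha => ?_
  have hs : ∑ i, c i * idealOrd R v (I i) = 0 := by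
    refine Finset.sum_eq_zero fun i _ => ?_
    rcases hI i with h1 | h1
    · rw [h1, zero_mul]
    · rw [h1, idealOrd_top hv, mul_zero]
  rw [hs, sub_zero]
  exact iInf_le_of_le v (iInf_le_of_le hv (iInf_le_of_le a (iInf_le_of_le ha le_rfl)))

/-- The case of equality. -/
theorem pairVolume_eq_iff (hn : 2 ≤ n) (h : IsKltPair R n r ω I c)
    (hreg : ¬ (IsRegularLocalRing R ∧ NoBoundary R n r ω)) (hc : 3 ≤ n ∨ NoBoundary R n r ω) :
    pairVolume R n r ω I c = 2 * ((n : ℝ≥0∞) - 1) ^ n ↔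
      NoBoundary R n r ω ∧ (∀ i, c i = 0 ∨ I i = ⊤) ∧ IsODP R n := by
  constructor
  · intro heq
    have h1 : NoBoundary R n r ω ∧ IsODP R n := by
      rcases hc with hn3 | h0
      · exact P282H.equality_orb hn3 h.toOrb hreg (nVolGe h heq)
      · exact ⟨h0, Full.equality_general hn (h.toGerm h0).toFull (fun hr => hreg ⟨hr, h0⟩)
          (nVolGe h heq)⟩
    exact ⟨h1.1, ideals_trivial hn h hreg heq, h1.2⟩
  · rintro ⟨h0, hI, hodp⟩
    exact pairVolume_odp hn h hreg h0 hI hodp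

end Vale.Agent.P282.Pair
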