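import Vale.Agent.P282.H133.Cover

/-!
P282, pairs: if the boundary `D` is not zero then the decomposition group of the cyclic cover is
not trivial.
-/

open scoped NNReal ENNReal Nat WithZero
open IsLocalRing

namespace Vale.Agent.P282H

open Vale.Agent.P282.Full

variable {n r : ℕ} {R K R' K' : Type} [CommRing R] [IsDomain R] [IsLocalRing R] [Algebra ℂ R]
  [Field K] [Algebra ℂ K] [Algebra R K] [IsScalarTower ℂ R K] [IsFractionRing R K]
  [CommRing R'] [IsDomain R'] [IsLocalRing R'] [Algebra ℂ R']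
  [Field K'] [Algebra ℂ K'] [Algebra R' K'] [IsScalarTower ℂ R' K'] [IsFractionRing R' K']
  [Algebra K K'] [IsScalarTower ℂ K K'] [Algebra R R'] [Algebra R K'] [IsScalarTower R R' K']
  [IsScalarTower R K K'] [IsScalarTower ℂ R R']

/-- The arithmetic of the generator at a normalized valuation. -/
theorem ord_generator (hn : 1 ≤ n) {ω : (Fin n → Derivation ℂ K K) → K}
    (h : IsOrbGerm R n r ω) {g : K} {b : Fin n → K}
    (hω : ∀ D, ω D = g * Matrix.det (Matrix.of fun i j => D i (b j)) ^ r)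
    {w : Valuation K ℝ≥0} {P : Ideal R} (hwc : HasCenter R w P)
    (hP : P.height = 1) (hwn : IsNormalized w) {m : ℕ} (hm : 0 < m)
    (hlog : IsLogDiscrepancy n r ω w (1 / m)) :
    g ≠ 0 ∧ ∃ c l : ℤ, 0 < c ∧ (r : ℤ) = m * c ∧ Real.log (w g) = -((c * (1 + m * l) : ℤ) : ℝ) := by
  obtain ⟨L, ζ, hL, hωL, hval⟩ := h.value hn hwc hP hwn hm hlog
  have hrR : (0 : ℝ) < r := by exact_mod_cast h.index_pos
  have hmR : (0 : ℝ) < m := by exact_mod_cast hm
  rw [hω L] at hωL hval
  set δ := Matrix.det (Matrix.of fun i j => L i (b j)) with hδ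
  have hg : g ≠ 0 := left_ne_zero_of_mul hωL
  have hδ0 : δ ≠ 0 := by
    intro h0
    exact hωL (by rw [h0, zero_pow h.index_pos.ne', mul_zero])
  obtain ⟨kg, hkg⟩ := IsNormalized.exists_int hwn hg
  obtain ⟨kδ, hkδ⟩ := IsNormalized.exists_int hwn hδ0
  have hpos : ∀ x : K, x ≠ 0 → ((w x : ℝ≥0) : ℝ) ≠ 0 := by
    intro x hx
    have : w x ≠ 0 := (Valuation.ne_zero_iff w).2 hx
    exact_mod_cast this
  rw [map_mul, map_pow, NNReal.coe_mul, NNReal.coe_pow,
    Real.log_mul (hpos _ hg) (pow_ne_zero _ (hpos _ hδ0)), Real.log_pow, hkg, hkδ] at hval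
  set c : ℤ := kg + r * kδ with hc
  have h1 : (r : ℝ) / m = c := by
    rw [hc]
    push_cast
    linarith
  have h2 : (r : ℝ) = m * c := by
    rw [← h1]
    field_simp
  have h3 : (r : ℤ) = m * c := by exact_mod_cast h2
  have hc0 : 0 < c := by
    have : (0 : ℝ) < c := by rw [← h1]; positivity
    exact_mod_cast this
  refine ⟨hg, c, -kδ, hc0, h3, ?_⟩
  rw [hkg]
  have h4 : kg = c * (1 + m * -kδ) := by
    have : kg = c - r * kδ := by rw [hc]; ring
    rw [this, h3]
    ring
  rw [h4]

/-- The eigencomponents of an integral element are integral. -/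
theorem eigen_integral (hr : 0 < r) (hnorm : IsIntegrallyClosed R) {g : K} {ε : K'} (hε0 : ε ≠ 0)
    (hc : IsCover (R := R) (R' := R') n r g ε) (x : R') (hx : IsIntegral R x) :
    ∃ (d : ℕ) (a : Fin d → K) (z : Fin d → R),
      algebraMap R' K' x = ∑ j : Fin d, algebraMap K K' (a j) * ε ^ (j : ℕ) ∧
      (∀ j, ∃ y : R', algebraMap R' K' y = algebraMap K K' (a j) * ε ^ (j : ℕ)) ∧
      ∀ j, algebraMap R K (z j) = a j ^ r * g ^ (j : ℕ) := by
  have hfin := hc.finite
  have hgal := hc.galois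
  have hnorm' := hc.normal
  obtain ⟨d, a, -, hsum, hkey⟩ := eigen hfin hgal hr hε0 hc.adjoin hc.pow (algebraMap R' K' x)
  have hC : ∀ z : ℂ, IsIntegral R (algebraMap ℂ K' z) := by
    intro z
    rw [IsScalarTower.algebraMap_apply ℂ K K', IsScalarTower.algebraMap_apply ℂ R K,
      ← IsScalarTower.algebraMap_apply R K K']
    exact isIntegral_algebraMap
  have hσ : ∀ σ : K' ≃ₐ[K] K', IsIntegral R (σ (algebraMap R' K' x)) := fun σ =>
    (hx.algebraMap).map ((σ : K' →ₐ[K] K').restrictScalars R)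
  have hint : ∀ j : Fin d, IsIntegral R (algebraMap K K' (a j) * ε ^ (j : ℕ)) := by
    intro j
    have h1 : IsIntegral R (∑ σ : K' ≃ₐ[K] K', σ (algebraMap R' K' x) / (rat ε σ) ^ (j : ℕ)) := by
      refine IsIntegral.sum _ fun σ _ => ?_
      obtain ⟨ζ, hζ0, hζ⟩ := rat_exists hr hε0 hc.pow σ
      have h2 : σ (algebraMap R' K' x) / (rat ε σ) ^ (j : ℕ) =
          σ (algebraMap R' K' x) * algebraMap ℂ K' ((ζ ^ (j : ℕ))⁻¹) := by
        rw [hζ, map_inv₀, map_pow, div_eq_mul_inv]
      rw [h2]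
      exact (hσ σ).mul (hC _)
    rw [hkey] at h1
    have hcard : (Fintype.card (K' ≃ₐ[K] K') : ℂ) ≠ 0 := by exact_mod_cast Fintype.card_ne_zero
    have h3 : algebraMap K K' (a j) * ε ^ (j : ℕ) =
        algebraMap ℂ K' ((Fintype.card (K' ≃ₐ[K] K') : ℂ)⁻¹) *
          ((Fintype.card (K' ≃ₐ[K] K') : K') * (algebraMap K K' (a j) * ε ^ (j : ℕ))) := by
      have h4 : (Fintype.card (K' ≃ₐ[K] K') : K') =
          algebraMap ℂ K' (Fintype.card (K' ≃ₐ[K] K') : ℂ) := by rw [map_natCast]
      rw [h4, ← mul_assoc, ← map_mul, inv_mul_cancel₀ hcard, map_one, one_mul]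
    rw [h3]
    exact (hC _).mul h1
  have hz : ∀ j : Fin d, ∃ z : R, algebraMap R K z = a j ^ r * g ^ (j : ℕ) := by
    intro j
    have h1 := (hint j).pow r
    have h2 : (algebraMap K K' (a j) * ε ^ (j : ℕ)) ^ r =
        algebraMap K K' (a j ^ r * g ^ (j : ℕ)) := by
      rw [mul_pow, ← pow_mul, mul_comm (j : ℕ) r, pow_mul, hc.pow, map_mul, map_pow, map_pow]
    rw [h2] at h1
    have h3 : IsIntegral R (a j ^ r * g ^ (j : ℕ)) :=
      (isIntegral_algebraMap_iff (algebraMap K K').injective).1 h1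
    exact IsIntegrallyClosed.isIntegral_iff.1 h3
  choose z hz' using hz
  refine ⟨d, a, z, hsum, fun j => ?_, hz'⟩
  exact IsIntegrallyClosed.isIntegral_iff.1 ((hint j).tower_top (A := R'))

theorem rat_pow_of_orderOf (hr : 0 < r) {g : K} {ε : K'} (hε0 : ε ≠ 0)
    (hpow : ε ^ r = algebraMap K K' g) (σ : K' ≃ₐ[K] K') (k : ℕ) :
    rat ε (σ ^ k) = rat ε σ ^ k := by
  induction k with
  | zero =>
    rw [pow_zero, pow_zero, rat, AlgEquiv.one_apply]
    exact div_self hε0
  | succ k ih => rw [pow_succ, rat_mul hr hε0 hpow, ih, pow_succ]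

/-- If some coefficient of `D` is not zero then a nontrivial automorphism of the cover fixes the
closed point. -/
theorem exists_sigma (hn : 1 ≤ n) {ω : (Fin n → Derivation ℂ K K) → K}
    (h : IsOrbGerm R n r ω) {g : K} {b : Fin n → K}
    (hω : ∀ D, ω D = g * Matrix.det (Matrix.of fun i j => D i (b j)) ^ r) {ε : K'}
    (hc : IsCover (R := R) (R' := R') n r g ε)
    {w : Valuation K ℝ≥0} {P : Ideal R} (hwc : HasCenter R w P)
    (hP : P.height = 1) (hwn : IsNormalized w) {m : ℕ} (hm : 2 ≤ m)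
    (hlog : IsLogDiscrepancy n r ω w (1 / m)) :
    ∃ σ : K' ≃ₐ[K] K', (∀ a : R', ∃ b : R', algebraMap R' K' b = σ (algebraMap R' K' a)) ∧
      σ ≠ 1 := by
  classical
  have hr := h.index_pos
  have hfin := hc.finite
  have hgal := hc.galois
  have hnorm' := hc.normal
  obtain ⟨hg, c, l, hc0, hrc, hwg⟩ := ord_generator hn h hω hwc hP hwn (by omega) hlog
  have hε0 : ε ≠ 0 := by
    intro h0
    have h1 := hc.pow
    rw [h0, zero_pow hr.ne'] at h1
    exact hg ((map_eq_zero _).mp h1.symm)
  have hpos : ∀ x : K, x ≠ 0 → ((w x : ℝ≥0) : ℝ) ≠ 0 := by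
    intro x hx
    have : w x ≠ 0 := (Valuation.ne_zero_iff w).2 hx
    exact_mod_cast this
  -- `m` divides the degree
  have hdvd : m ∣ Module.finrank K K' := by
    have h1 : (Algebra.norm K ε) ^ r = g ^ Module.finrank K K' := by
      rw [← map_pow, hc.pow, Algebra.norm_algebraMap]
    have hN0 : Algebra.norm K ε ≠ 0 := Algebra.norm_ne_zero_iff.2 hε0
    obtain ⟨kN, hkN⟩ := IsNormalized.exists_int hwn hN0
    have h2 := congrArg (fun x : K => Real.log (w x)) h1
    simp only [map_pow, NNReal.coe_pow, Real.log_pow] at h2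
    rw [hkN, hwg] at h2
    have h3 : (r : ℤ) * kN = (Module.finrank K K' : ℤ) * (c * (1 + m * l)) := by
      have : ((r : ℝ)) * kN = (Module.finrank K K' : ℝ) * ((c * (1 + m * l) : ℤ) : ℝ) := by
        linarith
      exact_mod_cast this
    have h4 : (m : ℤ) * kN = (Module.finrank K K' : ℤ) * (1 + m * l) := by
      apply mul_left_cancel₀ hc0.ne'
      rw [hrc] at h3
      linear_combination h3
    have h5 : (m : ℤ) ∣ (Module.finrank K K' : ℤ) :=
      ⟨kN - Module.finrank K K' * l, by linear_combination -h4⟩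
    exact_mod_cast h5
  set p := m.minFac with hp
  have hpp : p.Prime := Nat.minFac_prime (by omega)
  have hpm : p ∣ m := Nat.minFac_dvd m
  have : Fact p.Prime := ⟨hpp⟩
  obtain ⟨σ, hσ⟩ := exists_prime_orderOf_dvd_card' (G := K' ≃ₐ[K] K') p
    (by rw [IsGalois.card_aut_eq_finrank]; exact hpm.trans hdvd)
  have hσ1 : σ ≠ 1 := by
    rintro rfl
    rw [orderOf_one] at hσ
    exact hpp.one_lt.ne hσ
  have hratp : rat ε σ ^ p = 1 := by
    rw [← rat_pow_of_orderOf hr hε0 hc.pow, ← hσ, pow_orderOf_eq_one, rat, AlgEquiv.one_apply]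
    exact div_self hε0
  -- `σ x - x` is in the maximal ideal
  have key : ∀ x : R', IsIntegral R x → ∃ d ∈ maximalIdeal R',
      algebraMap R' K' d = σ (algebraMap R' K' x) - algebraMap R' K' x := by
    intro x hx
    obtain ⟨d, a, z, hsum, hy, hz⟩ := eigen_integral hr h.normal hε0 hc x hx
    choose y hy' using hy
    have hσx : σ (algebraMap R' K' x) - algebraMap R' K' x =
        ∑ j : Fin d, (rat ε σ ^ (j : ℕ) - 1) * algebraMap R' K' (y j) := by
      rw [hsum, map_sum, ← Finset.sum_sub_distrib]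
      refine Finset.sum_congr rfl fun j _ => ?_
      rw [map_mul, AlgEquiv.commutes, map_pow, apply_eq_rat hε0 σ, mul_pow, hy']
      ring
    obtain ⟨ζ, hζ0, hζ⟩ := rat_exists hr hε0 hc.pow σ
    have hterm : ∀ j : Fin d, ∃ e ∈ maximalIdeal R',
        algebraMap R' K' e = (rat ε σ ^ (j : ℕ) - 1) * algebraMap R' K' (y j) := by
      intro j
      by_cases hj : p ∣ (j : ℕ)
      · obtain ⟨q, hq⟩ := hj
        refine ⟨0, Ideal.zero_mem _, ?_⟩
        rw [hq, pow_mul, hratp, one_pow, sub_self, zero_mul, map_zero]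
      · -- the value of `z j`
        have hzP : z j ∈ P := by
          by_cases ha : a j = 0
          · have h1 := hz j
            rw [ha, zero_pow hr.ne', zero_mul] at h1
            have h2 : z j = 0 := by
              rwa [FaithfulSMul.algebraMap_eq_zero_iff] at h1
            rw [h2]
            exact P.zero_mem
          · obtain ⟨ka, hka⟩ := IsNormalized.exists_int hwn ha
            rw [← (hwc (z j)).2]
            refine lt_of_le_of_ne (hwc (z j)).1 fun h1 => ?_
            rw [hz j] at h1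
            have h2 := congrArg (fun x : ℝ≥0 => Real.log x) h1
            simp only [map_mul, map_pow, NNReal.coe_mul, NNReal.coe_pow, NNReal.coe_one,
              Real.log_one] at h2
            rw [Real.log_mul (pow_ne_zero _ (hpos _ ha)) (pow_ne_zero _ (hpos _ hg)), Real.log_pow,
              Real.log_pow, hka, hwg] at h2
            have h3 : (r : ℤ) * ka + (j : ℕ) * (c * (1 + m * l)) = 0 := by
              have : (r : ℝ) * ka + (j : ℕ) * ((c * (1 + m * l) : ℤ) : ℝ) = 0 := by linarith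
              exact_mod_cast this
            rw [hrc] at h3
            have h4 : (m : ℤ) * ka + (j : ℕ) * (1 + m * l) = 0 := by
              apply mul_left_cancel₀ hc0.ne'
              rw [mul_zero]
              linear_combination h3
            have h5 : (m : ℤ) ∣ ((j : ℕ) : ℤ) := ⟨-ka - (j : ℕ) * l, by linear_combination h4⟩
            exact hj (hpm.trans (by exact_mod_cast h5))
        have hPm : P ≤ maximalIdeal R := by
          refine IsLocalRing.le_maximalIdeal ?_
          rw [Ne, Ideal.eq_top_iff_one, ← (hwc 1).2, map_one, map_one]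
          exact lt_irrefl _
        have hym : y j ∈ maximalIdeal R' := by
          have h1 : (y j) ^ r = algebraMap R R' (z j) := by
            apply FaithfulSMul.algebraMap_injective R' K'
            rw [map_pow, hy', mul_pow, ← pow_mul, mul_comm (j : ℕ) r, pow_mul, hc.pow,
              ← map_pow, ← map_pow, ← map_mul, ← hz j, ← IsScalarTower.algebraMap_apply R R' K',
              ← IsScalarTower.algebraMap_apply R K K']
          have h2 : (y j) ^ r ∈ maximalIdeal R' := by
            rw [h1]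
            exact (hc.mem_iff _).2 (hPm hzP)
          exact (IsLocalRing.maximalIdeal.isMaximal R').isPrime.mem_of_pow_mem r h2
        refine ⟨algebraMap ℂ R' (ζ ^ (j : ℕ) - 1) * y j, Ideal.mul_mem_left _ _ hym, ?_⟩
        rw [map_mul, ← IsScalarTower.algebraMap_apply ℂ R' K', hζ, map_sub, map_pow, map_one]
    choose e he he' using hterm
    refine ⟨∑ j, e j, Ideal.sum_mem _ fun j _ => he j, ?_⟩
    rw [map_sum, hσx]
    exact Finset.sum_congr rfl fun j _ => he' j
  refine ⟨σ, fun a => ?_, hσ1⟩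
  obtain ⟨s, hs, hsi, hsa⟩ := hc.integral a
  obtain ⟨d1, hd1, hd1'⟩ := key s hsi
  obtain ⟨d2, hd2, hd2'⟩ := key (s * a) hsa
  have hu : IsUnit (s + d1) := by
    by_contra hnu
    have h1 : s + d1 ∈ maximalIdeal R' := (mem_maximalIdeal _).2 hnu
    have h2 : s ∈ maximalIdeal R' := by
      have := Ideal.sub_mem _ h1 hd1
      rwa [add_sub_cancel_right] at this
    exact (mem_maximalIdeal _).1 h2 hs
  obtain ⟨u, hu'⟩ := hu
  have h1 : σ (algebraMap R' K' s) = algebraMap R' K' (s + d1) := by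
    rw [map_add, hd1']
    ring
  have h2 : σ (algebraMap R' K' (s * a)) = algebraMap R' K' (s * a + d2) := by
    rw [map_add, hd2']
    ring
  refine ⟨(s * a + d2) * ((u⁻¹ : R'ˣ) : R'), ?_⟩
  have hs0 : algebraMap R' K' (s + d1) ≠ 0 := by
    rw [Ne, FaithfulSMul.algebraMap_eq_zero_iff, ← hu']
    exact u.ne_zero
  rw [map_mul (algebraMap R' K'), map_mul σ] at h2
  apply mul_left_cancel₀ hs0
  rw [h1] at h2
  rw [h2, map_mul, ← hu', mul_left_comm, ← map_mul]
  rw [Units.mul_inv, map_one, mul_one]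

end Vale.Agent.P282H
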